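import Mathlib

/-!
P300, block [PHI] (helper951, note 15197): crossed homomorphism data on a finite set with two
permutations all of whose cycle lengths are powers of a prime.
-/

namespace Vale.Agent.P300.H511

open Finset Function

/-- Sum along `w * j` steps of an orbit of period `w`. -/
theorem sum_iter_mul {Om : Type*} (s : Om → Om) (p : Om) (h : Om → ℕ) (w : ℕ)
    (hw : s^[w] p = p) (j : ℕ) :
    ∑ i ∈ range (w * j), h (s^[i] p) = j * ∑ i ∈ range w, h (s^[i] p) := by
  induction j with
  | zero => simp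
  | succ j ih =>
    rw [Nat.mul_succ, Finset.sum_range_add, ih]
    have hp : s^[w * j] p = p := by
      rw [Function.iterate_mul]
      exact Function.iterate_fixed hw j
    have : ∀ x ∈ range w, h (s^[w * j + x] p) = h (s^[x] p) := by
      intro x _
      rw [Nat.add_comm, Function.iterate_add_apply, hp]
    rw [Finset.sum_congr rfl this]
    ring

theorem pow_apply_iff {Om : Type*} (s : Equiv.Perm Om) (p : Om) (k : ℕ) :
    (s ^ k) p = p ↔ minimalPeriod s p ∣ k := by
  rw [← Equiv.Perm.iterate_eq_pow]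
  exact Function.isPeriodicPt_iff_minimalPeriod_dvd

theorem minPer_pos {Om : Type*} [Finite Om] (s : Equiv.Perm Om) (p : Om) :
    0 < minimalPeriod s p :=
  Function.minimalPeriod_pos_of_mem_periodicPts (s.injective.mem_periodicPts p)

/-- The representative of a cycle. -/
noncomputable def rep {Om : Type*} (s : Equiv.Perm Om) (p : Om) : Om :=
  (Quotient.mk (Equiv.Perm.SameCycle.setoid s) p).out

theorem rep_same {Om : Type*} (s : Equiv.Perm Om) (p : Om) : s.SameCycle (rep s p) p :=
  Quotient.mk_out (s := Equiv.Perm.SameCycle.setoid s) p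

theorem rep_eq {Om : Type*} (s : Equiv.Perm Om) {p q : Om} (h : s.SameCycle p q) :
    rep s p = rep s q := by
  unfold rep
  have : (Quotient.mk (Equiv.Perm.SameCycle.setoid s) p) =
      (Quotient.mk (Equiv.Perm.SameCycle.setoid s) q) :=
    Quotient.sound (s := Equiv.Perm.SameCycle.setoid s) h
  rw [this]

theorem same_iter {Om : Type*} (s : Equiv.Perm Om) (p : Om) (i : ℕ) :
    s.SameCycle p (s^[i] p) := by
  rw [Equiv.Perm.iterate_eq_pow]
  exact ⟨i, by simp⟩

/-- A function supported on the representatives, constant along the cycle otherwise: its sum over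
one period is its value. -/
theorem sum_rep {Om : Type*} [Finite Om] [DecidableEq Om] (s : Equiv.Perm Om) (c : Om → ℕ)
    (hc : ∀ p, c (s p) = c p) (p : Om) :
    ∑ i ∈ range (minimalPeriod s p),
      (if s^[i] p = rep s (s^[i] p) then c (s^[i] p) else 0) = c p := by
  have hci : ∀ i, c (s^[i] p) = c p := by
    intro i
    induction i with
    | zero => rfl
    | succ i ih => rw [Function.iterate_succ_apply', hc, ih]
  have hri : ∀ i, rep s (s^[i] p) = rep s p := fun i => (rep_eq s (same_iter s p i)).symm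
  obtain ⟨n, hn⟩ := (rep_same s p).symm.exists_nat_pow_eq
  set w := minimalPeriod s p with hw
  have hwpos : 0 < w := minPer_pos s p
  have hn' : s^[n % w] p = rep s p := by
    rw [hw, Function.iterate_mod_minimalPeriod_eq, Equiv.Perm.iterate_eq_pow]
    exact hn
  rw [Finset.sum_eq_single_of_mem (n % w) (by simpa using Nat.mod_lt n hwpos)]
  · rw [hri, hn', if_pos rfl, ← hn', hci]
  · intro i hi hne
    rw [hri, if_neg]
    intro h
    apply hne
    have := Function.iterate_injOn_Iio_minimalPeriod (f := s) (x := p)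
      (show i ∈ Set.Iio w by simpa using hi)
      (show n % w ∈ Set.Iio w from Nat.mod_lt n hwpos)
      (by simpa using h.trans hn'.symm)
    exact this

/-- The block [PHI]. -/
theorem phi {Om : Type*} [Fintype Om] [DecidableEq Om] (s0 s1 : Equiv.Perm Om) (l : ℕ)
    (hl : l.Prime) (_h0 : ∀ p, ∃ e, minimalPeriod s0 p = l ^ e)
    (h1 : ∀ p, ∃ e, minimalPeriod s1 p = l ^ e)
    (h01 : ∀ p, ∃ e, minimalPeriod (s0 * s1) p = l ^ e)
    (o : Om → ℕ) (ho : ∀ p, ∃ e, o p = l ^ e) (hos : ∀ p, o (s0 p) = o p)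
    (hod : ∀ p, minimalPeriod s0 p ∣ o p) :
    ∃ a0, ∀ a, a0 ≤ a → ∃ f0 f1 : Om → ZMod (l ^ a), ∀ (p : Om) (k : ℕ),
      (((s0 ^ k) p = p ∧ ∑ i ∈ range k, f0 ((s0 ^ i) p) = 0) ↔ o p ∣ k) ∧
      (((s1 ^ k) p = p ∧ ∑ i ∈ range k, f1 ((s1 ^ i) p) = 0) ↔ l ^ a ∣ k) ∧
      ((((s0 * s1) ^ k) p = p ∧
          ∑ i ∈ range k, (f1 (((s0 * s1) ^ i) p) + f0 (s1 (((s0 * s1) ^ i) p))) = 0) ↔
        l ^ a ∣ k) := by
  classical
  choose e1 he1 using h1
  choose e01 he01 using h01
  choose eo heo using ho
  obtain ⟨b, hb⟩ : ∃ b, ∀ p, e1 p ≤ b ∧ e01 p ≤ b ∧ eo p ≤ b := by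
    refine ⟨∑ p, (e1 p + e01 p + eo p), fun p => ?_⟩
    have : e1 p + e01 p + eo p ≤ ∑ p, (e1 p + e01 p + eo p) :=
      Finset.single_le_sum (f := fun p => e1 p + e01 p + eo p) (fun _ _ => Nat.zero_le _)
        (Finset.mem_univ p)
    omega
  refine ⟨b + b + 1, fun a ha => ?_⟩
  set M := l ^ a with hM
  have hlpos : 0 < l := hl.pos
  have hMpos : 0 < M := pow_pos hlpos a
  have hodM : ∀ p, o p ∣ M := fun p => by
    rw [heo p, hM]; exact pow_dvd_pow l (by have := (hb p).2.2; omega)
  have hopos : ∀ p, 0 < o p := fun p => by rw [heo p]; exact pow_pos hlpos _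
  -- the value carried by one cycle of `s0`
  let c : Om → ℕ := fun p => M / o p * minimalPeriod s0 p
  have hc : ∀ p, c (s0 p) = c p := by
    intro p
    show M / o (s0 p) * minimalPeriod s0 (s0 p) = M / o p * minimalPeriod s0 p
    rw [hos, Function.minimalPeriod_apply (s0.injective.mem_periodicPts p)]
  let g : Om → ℕ := fun p => if p = rep s0 p then c p else 0
  have hg : ∀ p, l * l ^ b ∣ g p := by
    intro p
    show l * l ^ b ∣ (if p = rep s0 p then c p else 0)
    split_ifs
    · show l * l ^ b ∣ M / o p * minimalPeriod s0 p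
      apply Dvd.dvd.mul_right
      have : M / o p = l ^ (a - eo p) := by
        rw [heo p, hM, Nat.pow_div (by have := (hb p).2.2; omega) hlpos]
      rw [this, ← pow_succ']
      exact pow_dvd_pow l (by have := (hb p).2.2; omega)
    · exact dvd_zero _
  refine ⟨fun p => (g p : ZMod M), fun _ => 1, fun p k => ⟨?_, ?_, ?_⟩⟩
  · -- s0
    rw [pow_apply_iff]
    have hcast : ∑ i ∈ range k, ((g ((s0 ^ i) p) : ℕ) : ZMod M) = 0 ↔
        M ∣ ∑ i ∈ range k, g (s0^[i] p) := by
      rw [← Nat.cast_sum, ZMod.natCast_eq_zero_iff]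
      simp only [Equiv.Perm.iterate_eq_pow]
    rw [hcast]
    set w := minimalPeriod s0 p with hw
    have hwpos : 0 < w := minPer_pos s0 p
    have key : ∀ j, ∑ i ∈ range (w * j), g (s0^[i] p) = j * (M / o p * w) := by
      intro j
      rw [sum_iter_mul s0 p g w (Function.iterate_minimalPeriod) j]
      congr 1
      exact sum_rep s0 c hc p
    have hMo : M = M / o p * o p := (Nat.div_mul_cancel (hodM p)).symm
    have hMopos : 0 < M / o p := Nat.div_pos (Nat.le_of_dvd hMpos (hodM p)) (hopos p)
    constructor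
    · rintro ⟨⟨j, rfl⟩, h⟩
      rw [key] at h
      have h' : M / o p * o p ∣ M / o p * (w * j) := by
        rw [← hMo]
        have : j * (M / o p * w) = M / o p * (w * j) := by ring
        rwa [this] at h
      exact Nat.dvd_of_mul_dvd_mul_left hMopos h'
    · intro h
      obtain ⟨j, rfl⟩ := (hod p).trans h
      refine ⟨dvd_mul_right _ _, ?_⟩
      rw [← hw, key]
      have : j * (M / o p * w) = M / o p * (w * j) := by ring
      rw [this]
      nth_rewrite 1 [hMo]
      exact Nat.mul_dvd_mul_left _ h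
  · -- s1
    rw [pow_apply_iff]
    have hcast : ∑ i ∈ range k, (1 : ZMod M) = 0 ↔ M ∣ k := by
      rw [Finset.sum_const, Finset.card_range, nsmul_eq_mul, mul_one, ZMod.natCast_eq_zero_iff]
    rw [hcast]
    constructor
    · exact fun h => h.2
    · intro h
      refine ⟨?_, h⟩
      rw [he1 p]
      exact (pow_dvd_pow l (by have := (hb p).1; omega)).trans h
  · -- s0 * s1
    rw [pow_apply_iff]
    have hcast : ∑ i ∈ range k, ((1 : ZMod M) + ((g (s1 (((s0 * s1) ^ i) p)) : ℕ) : ZMod M)) = 0 ↔
        M ∣ ∑ i ∈ range k, (1 + g (s1 ((s0 * s1)^[i] p))) := by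
      rw [← ZMod.natCast_eq_zero_iff]
      push_cast
      simp only [Equiv.Perm.iterate_eq_pow]
    rw [hcast]
    set w := minimalPeriod (s0 * s1) p with hw
    have hwpos : 0 < w := minPer_pos (s0 * s1) p
    have hwl : w = l ^ e01 p := he01 p
    have hwM : w ∣ M := by rw [hwl, hM]; exact pow_dvd_pow l (by have := (hb p).2.1; omega)
    obtain ⟨S, hS⟩ : ∃ S, ∑ i ∈ range w, g (s1 ((s0 * s1)^[i] p)) = l * w * S := by
      have : l * w ∣ ∑ i ∈ range w, g (s1 ((s0 * s1)^[i] p)) := by
        apply Finset.dvd_sum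
        intro i _
        refine dvd_trans ?_ (hg _)
        rw [hwl]
        exact Nat.mul_dvd_mul_left l (pow_dvd_pow l (hb p).2.1)
      exact this
    have key : ∀ j, ∑ i ∈ range (w * j), (1 + g (s1 ((s0 * s1)^[i] p))) =
        (w * j) * (1 + l * S) := by
      intro j
      rw [sum_iter_mul (s0 * s1) p (fun q => 1 + g (s1 q)) w (Function.iterate_minimalPeriod) j,
        Finset.sum_add_distrib, hS]
      simp
      ring
    have hcop : Nat.Coprime M (1 + l * S) := by
      rw [hM]
      apply Nat.Coprime.pow_left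
      rw [Nat.coprime_add_mul_left_right]
      exact Nat.coprime_one_right l
    constructor
    · rintro ⟨⟨j, rfl⟩, h⟩
      rw [key] at h
      exact hcop.dvd_of_dvd_mul_right h
    · intro h
      obtain ⟨j, rfl⟩ := hwM.trans h
      refine ⟨dvd_mul_right _ _, ?_⟩
      rw [key]
      exact Dvd.dvd.mul_right h _

end Vale.Agent.P300.H511
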